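import Vale.Agent.P017.H260.Moment
import Vale.Agent.P017.H49.Min
import Vale.Agent.P017.H998.Stmt

/-!
# A positive proportion of the imaginary quadratic fields `K` have `X₀(15)(K)` finite

`X015` is the modular curve `X₀(15)`, with its Weierstrass equation
`y² + xy + y = x³ + x² - 10x - 10` over `ℚ` (the curve `15a1` of Cremona's tables).
An imaginary quadratic field is determined up to isomorphism by its discriminant.
-/

universe u

namespace Vale.Agent.Results.P017.PositiveProportion

open NumberField

/-- The discriminants `D` with `|D| ≤ X` of the imaginary quadratic fields. -/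
def discs (X : ℕ) : Set ℤ := {D : ℤ | |D| ≤ X ∧ ∃ (K : Type) (_ : Field K) (_ : NumberField K)
  (_ : Algebra.IsQuadraticExtension ℚ K) (_ : IsTotallyComplex K), discr K = D}

/-- The integers `D` such that `X₀(15)(K)` is finite for every imaginary quadratic field `K` of
discriminant `D`. -/
def fin : Set ℤ := {D : ℤ | ∀ (K : Type u) [Field K] [NumberField K]
  [Algebra.IsQuadraticExtension ℚ K] [IsTotallyComplex K], discr K = D →
    Finite (Vale.Agent.P017.H185.X015.baseChange K).toAffine.Point}

/-- The integers `D` with the symbols `(D / 3) = a` and `(D / 5) = b`. -/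
def sym (a b : ℤ) : Set ℤ := {D : ℤ | jacobiSym D 3 = a ∧ jacobiSym D 5 = b}

end Vale.Agent.Results.P017.PositiveProportion

open Vale.Agent.Results.P017.PositiveProportion in
/-- (1) At least `15.04` percent of all imaginary quadratic fields `K`, ordered by
`|disc K|`, have `X₀(15)(K)` finite.
(2) At least `28.87` percent of the imaginary quadratic fields `K` in which `(3, 5)` is
(split, inert), (inert, split), (ramified, inert), (split, ramified) or (ramified, ramified),
separately for each of these five types, have `X₀(15)(K)` finite. -/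
theorem Vale.Agent.Results.P017.PositiveProportion.result :
    (∃ X₀ : ℕ, ∀ X ≥ X₀,
      (0.1504 : ℝ) * (discs X).ncard ≤ (discs X ∩ fin.{u}).ncard) ∧
    ∀ a b : ℤ, (a, b) ∈ ({(1, -1), (-1, 1), (0, -1), (1, 0), (0, 0)} : Set (ℤ × ℤ)) →
      ∃ X₀ : ℕ, ∀ X ≥ X₀,
        (0.2887 : ℝ) * (discs X ∩ sym a b).ncard ≤ (discs X ∩ sym a b ∩ fin.{u}).ncard := by
  have hM : ∀ e c, Vale.Agent.P017.H509.Good e c → Vale.Agent.P017.H998.Moment e c := by
    intro e c hg k ε hε
    exact Vale.Agent.P017.H260.moment hg k ε hε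
  have hQ : Vale.Agent.P017.H998.Desc Vale.Agent.P017.H998.FinQ.{u} := by
    intro e m h1 h2 h3 h4 h5 K _ _ _ θ hθ
    obtain ⟨q⟩ := Vale.Agent.P017.H185.exists_QF_of_sqrt (Vale.Agent.P017.H998.sqf_mul h1 h2) hθ
    exact Vale.Agent.P017.H49.finite_of_min h1 h2 h3 h4 h5 K q
  refine ⟨Filter.eventually_atTop.1 (Vale.Agent.P017.H998.all_discs hM hQ), ?_⟩
  intro a b hab
  have key : ∀ i : Fin 5, Vale.Agent.P017.H998.pairs i = (a, b) → ∃ X₀ : ℕ, ∀ X ≥ X₀,
      (0.2887 : ℝ) * (discs X ∩ sym a b).ncard ≤ (discs X ∩ sym a b ∩ fin.{u}).ncard := by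
    intro i hi
    have h := Filter.eventually_atTop.1 (Vale.Agent.P017.H998.type_discs hM hQ i)
    have e1 : Vale.Agent.P017.H998.typeD i = sym a b := by
      ext D
      change (jacobiSym D 3, jacobiSym D 5) = Vale.Agent.P017.H998.pairs i ↔ _
      rw [hi, Prod.mk.injEq]
      rfl
    rw [e1] at h
    simp only [← Set.inter_assoc] at h
    exact h
  simp only [Set.mem_insert_iff, Set.mem_singleton_iff] at hab
  rcases hab with h | h | h | h | h
  · exact key 0 h.symm
  · exact key 1 h.symm
  · exact key 2 h.symm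
  · exact key 3 h.symm
  · exact key 4 h.symm
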